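import Crest.Agent.X212.Nvg56.Gl

/-!
# X212 / Nvg56, part Cn (helper56): curvature forms of classes

* `exists_cur`, `cur_cl`, `cur_add`, `cur_pb`, `cur_dif`, `exists_fix`;
* `cnStmt : Nv5.CnStmt`.
-/

set_option autoImplicit false
set_option linter.unusedSectionVars false

open Set Filter Topology Function
open scoped ContDiff Manifold
open Crest.Agent.R208 Crest.Agent.R208.F
open Crest.Agent.X212.Bor5.T Crest.Agent.X212.Lab56 Crest.Agent.X212.Rfl19
open Crest.Agent.X212.Dr59 hiding Ex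
open Crest.Agent.X212.Line51 (Ln)
open Crest.Agent.X212.Cyl58 (TP TIso)

noncomputable section

namespace Crest.Agent.X212.Nvg56

section gen

variable {E : Type} [NormedAddCommGroup E] [NormedSpace ℝ E] [FiniteDimensional ℝ E]
  {H : Type} [TopologicalSpace H] {I : ModelWithCorners ℝ E H} [I.Boundaryless]
  {M : Type} [TopologicalSpace M] [ChartedSpace H M] [IsManifold I ∞ M]
  {E' : Type} [NormedAddCommGroup E'] [NormedSpace ℝ E'] [FiniteDimensional ℝ E']
  {H' : Type} [TopologicalSpace H'] {I' : ModelWithCorners ℝ E' H'} [I'.Boundaryless]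
  {N : Type} [TopologicalSpace N] [ChartedSpace H' N] [IsManifold I' ∞ N]
  {U V : Set M} {W : Set N} {f : N → M} {d : Cls I (univ : Set M)} {s : Cls I' (univ : Set N)}
  {a b c : M → Ext E} {e : N → Ext E'}

theorem exists_cur (d : Cls I (univ : Set M)) : ∃ c, Cur d c := by
  obtain ⟨D⟩ := d
  exact ⟨_, D, rfl, _, D.ok.det.on, rfl⟩

theorem cur_cl (h : Cur d c) : Cl I 2 univ c := by
  obtain ⟨_, -, _, k, rfl⟩ := h
  exact k.cl_F isOpen_univ

theorem cur_add (h : Cur d c) (hb : Sm I univ b) (hd : Dg 1 univ b) : Cur d (c + dM I b) := by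
  obtain ⟨D, e, _, k, rfl⟩ := h
  exact ⟨D, e, _, k.shift hb hd, funext fun _ => (k.F_shift isOpen_univ hb trivial).symm⟩

theorem cur_dif (h : Pb f univ d s) (k : Cur d c) : Cur s (pm I' I f c) := by
  obtain ⟨D, rfl, _, k, rfl⟩ := k
  have m : Mp I' I univ univ f := ⟨fun y hy => (h.1 y hy).contMDiffAt, mapsTo_univ _ _⟩
  exact ⟨⟨_, _, _, D.ok.pull h.1 (mapsTo_univ _ _)⟩, h.2.trans (res_self _ _), _, k.pull m,
    funext fun _ => (k.F_pull isOpen_univ isOpen_univ m trivial).symm⟩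

theorem cur_pb [T2Space N] [SigmaCompactSpace N] (hW : IsOpen W) (h : Pb f W d s) (k : Cur s e) (k' : Cur d c) :
    Dr59.Ex I' W (pm I' I f c - e) := by
  obtain ⟨D, rfl, _, k, rfl⟩ := k
  obtain ⟨D', rfl, _, k', rfl⟩ := k'
  have m : Mp I' I W univ f := ⟨fun y hy => (h.1 y hy).contMDiffAt, mapsTo_univ _ _⟩
  obtain ⟨u, i⟩ := (mk_eq_iff hW).1 h.2.symm
  exact ((i.dm (D.ok.mono (subset_univ _)) (D'.ok.pull h.1 (mapsTo_univ _ _))).ex_F hW (k.mono (subset_univ _))
    (k'.pull m)).congr fun _ hy => congrArg (· - _) (k'.F_pull isOpen_univ hW m hy).symm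

/-- a global primitive that is right off `V` and zero off `U` -/
theorem exists_fix [T2Space M] [SigmaCompactSpace M] {k : ℕ} (hU : IsOpen U) (hV : IsOpen V) (hc : U ∪ V = univ)
    (h : Dr59.Ex I U a) (hd : Dg (k + 1) U a) : ∃ b, Sm I univ b ∧ Dg k univ b ∧
      (∀ x, x ∉ V → dM I b x = a x) ∧ ∀ x, x ∉ U → dM I b x = 0 := by
  obtain ⟨g, h1, h2, h3⟩ := h.deg hd
  obtain ⟨χ, q⟩ := exists_cut (I := I) hU hV
  have m := fun x => (hc.ge (mem_univ x) : x ∈ U ∪ V)
  have z : Cz I univ U χ := ⟨fun x _ => q.sm x (m x), fun x _ hx => q.z x ((m x).resolve_left hx) hx⟩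
  have e := fun x => z.d_smul h1 (fun x _ => h3 x) (mem_univ x)
  exact ⟨_, z.sm_smul h1, z.dg_smul h2, fun x hx => (e x).trans (cut_eq_self (q.o x ((m x).resolve_right hx) hx)),
    fun x hx => (e x).trans (cut_eq_zero (z.z x trivial hx))⟩

end gen

section tiso

variable {V V' : Type} [NormedAddCommGroup V] [NormedSpace ℝ V] [FiniteDimensional ℝ V]
  [NormedAddCommGroup V'] [NormedSpace ℝ V'] [FiniteDimensional ℝ V'] {X : TP V} {X' : TP V'} {J J' : Set ℝ}

theorem img (k : TIso X X' J) (h : J' ⊆ J) : k.φ '' (X.τ ⁻¹' J') = X'.τ ⁻¹' J' :=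
  (maps_of k h).image_subset.antisymm fun _ hx => ⟨_, maps_of k.symm h hx, k.apply_symm (h hx)⟩

theorem hz_end {B : Q3} (k : TIso B.cyl X J) (hJ : IsOpen J) (hc : OrdConnected J) : HZ X.P.I 2 (X.τ ⁻¹' J) := by
  rw [← img k subset_rfl, hz_pd k.φ (hJ.preimage B.cyl.cont) k.src.ge]
  have := B.h2.prod_convex isOpen_univ hJ hc.convex
  rwa [univ_prod] at this

end tiso

/-- **NV-CN** -/
theorem cnStmt : Nv5.CnStmt where
  cl _ _ _ := cur_cl
  pb W _ _ _ _ _ _ _ := have := sigT W.X; cur_pb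
  dif _ _ _ _ _ _ := cur_dif
  nf W Z B β β₁ β₂ b x l k := fun ⟨s, hs⟩ h1 h2 h3 h4 D d c₀ p q => by
    have := sigT W.X
    have := sigT Z.X
    obtain ⟨c, hc⟩ := exists_cur D
    have o := (isOpen_Iio (a := β₁)).preimage W.X.cont
    have sb : Iio β₁ ⊆ Iio β := Iio_subset_Iio h2
    have u : ∀ {y z : ℝ}, z < y → Z.X.τ ⁻¹' Iio y ∪ Z.X.τ ⁻¹' Ioi z = univ := fun h => by
      rw [← preimage_union, Iio_union_Ioi_of_lt h, preimage_univ]
    obtain ⟨g, g1, g2, g3, g4⟩ := exists_fix (k := 1) (a := psh l.φ c₀ - c) (isOpen_Iio.preimage Z.X.cont)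
      (isOpen_Ioi.preimage Z.X.cont) (u h1)
      (img l sb ▸ ex_pd l.φ o (fun _ hy => l.mem_src (sb hy)) ((cur_pb o p q hc).symm.congr fun y hy => by
        rw [pm_sub, Pi.sub_apply, pm_psh _ (l.mem_src (sb hy)), Pi.sub_apply]))
      (Dg.sub (((cur_cl q).dg.pm (mapsTo_univ _ _)).congr fun _ hy => indicator_of_mem (l.mem_tgt (sb hy)) _)
        ((cur_cl hc).dg.mono (subset_univ _)))
    have n := (cur_cl hc).neg.mono (subset_univ (Z.X.τ ⁻¹' Ioi b))
    obtain ⟨g', k1, k2, k3, k4⟩ := exists_fix (isOpen_Ioi.preimage Z.X.cont) (isOpen_Iio.preimage Z.X.cont)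
      (union_comm _ _ ▸ u h4) (hz_end k isOpen_Ioi ordConnected_Ioi _ n) n.dg
    have r := cur_add (cur_add hc g1 g2) k1 k2
    have z : ∀ y, y ∉ Z.X.τ ⁻¹' Icc s x → (c + dM _ g + dM _ g') y = 0 := fun y hy => by
      have : x < Z.X.τ y := not_le.1 fun h => hy ⟨hs y, h⟩
      simp only [Pi.add_apply]
      rw [g4 y ((h3.trans (h4.trans this).le).not_gt), k3 y this.le.not_gt]
      simp
    refine ⟨_, r, ⟨cur_cl r, HasCompactSupport.intro (Z.X.prop s x) z, (closure_minimal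
      (support_subset_iff'.2 z) (Z.X.prop s x).isClosed).trans fun _ hy => hy.2⟩, fun y hy => ?_⟩
    have e : Z.X.τ (l y) < β₂ := (l.tm y (sb (hy.trans h1))).trans_lt hy
    refine (pm_congr_right (b := psh l.φ c₀) ?_).trans (pm_psh _ (l.mem_src (sb (hy.trans h1))) _)
    simp only [Pi.add_apply]
    rw [g3 _ e.not_gt, k4 _ (e.trans (h1.trans_le h3)).not_gt]
    simp

end Crest.Agent.X212.Nvg56
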