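import Crest.Agent.X212.Nv5.Stm
import Crest.Agent.X212.Lab56.Exi
import Crest.Agent.X212.Rfl19.Th

/-!
# X212 / Nvg56, part Gl (helper56): classes restrict to the pieces of a gluing and glue along a neck

* `pull_back`, `cls_glue`, `cyl_surj`, `ext_end` : calculus of classes on open sets;
* `glStmt : Nv5.GlStmt`.
-/

set_option autoImplicit false
set_option linter.unusedSectionVars false

open Set Filter Topology Function
open scoped ContDiff Manifold
open Crest.Agent.X212.Bor5.T Crest.Agent.X212.Lab56 Crest.Agent.X212.Rfl19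
open Crest.Agent.X212.Cyl58 (TP TIso)
open Crest.Agent.X212.Rod53 (E4)

noncomputable section

namespace Crest.Agent.X212.Nvg56

section gen

variable {E : Type} [NormedAddCommGroup E] [NormedSpace ℝ E] [FiniteDimensional ℝ E]
  {H : Type} [TopologicalSpace H] {I : ModelWithCorners ℝ E H}
  {M : Type} [TopologicalSpace M] [ChartedSpace H M] [IsManifold I ∞ M]
  {E' : Type} [NormedAddCommGroup E'] [NormedSpace ℝ E'] [FiniteDimensional ℝ E']
  {H' : Type} [TopologicalSpace H'] {I' : ModelWithCorners ℝ E' H'}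
  {N : Type} [TopologicalSpace N] [ChartedSpace H' N] [IsManifold I' ∞ N]
  {O U V : Set M} {W : Set N} {f : N → M} {j : M → N}

/-- pulling back along a map and a section of it -/
theorem pull_back (c : Cls I O) (hf : ∀ y ∈ W, IsLocalDiffeomorphAt I' I ∞ f y) (hm : MapsTo f W O)
    (hj : ∀ x ∈ U, IsLocalDiffeomorphAt I I' ∞ j x) (hn : MapsTo j U W) (h : U ⊆ O)
    (e : ∀ x ∈ U, f ∘ j =ᶠ[𝓝 x] id) : (c.pull hf hm).pull hj hn = c.res h := by
  obtain ⟨a⟩ := c
  exact Quot.sound ((pull_inv a.d hj (fun _ hx => hf _ (hn hx)) e).symm.eqv ((a.ok.pull hf hm).pull hj hn))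

theorem sub_of (h : Subsingleton (Cls I' W)) (hf : ∀ y ∈ W, IsLocalDiffeomorphAt I' I ∞ f y) (hm : MapsTo f W O)
    (hj : ∀ x ∈ O, IsLocalDiffeomorphAt I I' ∞ j x) (hn : MapsTo j O W) (e : ∀ x ∈ O, f ∘ j =ᶠ[𝓝 x] id) :
    Subsingleton (Cls I O) :=
  ⟨fun c c' => by
    rw [← res_self c subset_rfl, ← res_self c' subset_rfl, ← pull_back c hf hm hj hn _ e,
      ← pull_back c' hf hm hj hn _ e, h.elim (c.pull hf hm)]⟩

variable [T2Space M] [SigmaCompactSpace M] [I.Boundaryless]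

/-- two classes that agree on the overlap glue -/
theorem cls_glue [Nonempty M] (hU : IsOpen U) (hV : IsOpen V) (hc : U ∪ V = univ) (c : Cls I U) (c' : Cls I V)
    (e : c.res (inter_subset_left (t := V)) = c'.res inter_subset_right) :
    ∃ s : Cls I (univ : Set M), s.res (subset_univ U) = c ∧ s.res (subset_univ V) = c' := by
  obtain ⟨a⟩ := c
  obtain ⟨b⟩ := c'
  obtain ⟨g, g1, g2, g3⟩ := exists_glue_eqv hU hV (hc ▸ univ_nonempty) a.ok b.ok ((mk_eq_iff (hU.inter hV)).1 e)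
  rw [hc] at g1
  exact ⟨g1.cls, (cls_eq_mk hU (g1.mono (subset_univ _))).2 (g2.symm a.ok (g1.mono (subset_univ _))),
    (cls_eq_mk hV (g1.mono (subset_univ _))).2 (g3.symm b.ok (g1.mono (subset_univ _)))⟩

/-- classes on a finite cylinder extend -/
theorem cyl_surj {J : Set ℝ} (hJ : IsOpen J) (hc : OrdConnected J) (hn : J.Nonempty)
    (c : Cls (I.prod 𝓘(ℝ, ℝ)) (Prod.snd ⁻¹' J : Set (M × ℝ))) :
    ∃ s : Cls (I.prod 𝓘(ℝ, ℝ)) (univ : Set (M × ℝ)), s.res (subset_univ _) = c := by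
  obtain ⟨a⟩ := c
  obtain ⟨b, h1, h2⟩ := exists_ext_cyl isOpen_univ hJ hc hn (a.ok.mono fun _ hx => hx.2)
  exact ⟨Quot.mk _ ⟨_, _, b, h1.mono fun _ _ => ⟨trivial, trivial⟩⟩,
    (Quot.sound (h2.mono fun _ hx => ⟨trivial, hx⟩)).symm⟩

end gen

theorem sigT {V : Type} [NormedAddCommGroup V] [NormedSpace ℝ V] [FiniteDimensional ℝ V] (X : TP V) :
    SigmaCompactSpace X.P.M :=
  have := Manifold.locallyCompact_of_finiteDimensional (M := X.P.M) X.P.I
  inferInstance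

section tiso

variable {V V' : Type} [NormedAddCommGroup V] [NormedSpace ℝ V] [FiniteDimensional ℝ V]
  [NormedAddCommGroup V'] [NormedSpace ℝ V'] [FiniteDimensional ℝ V'] {X : TP V} {X' : TP V'} {J J' : Set ℝ}

theorem ev_inv (k : TIso X X' J) {x : X'.P.M} (hx : X'.τ x ∈ J) : k ∘ k.symm =ᶠ[𝓝 x] id :=
  eventually_of_mem (k.φ.open_target.mem_nhds (k.mem_tgt hx)) fun _ hy => k.φ.right_inv hy

theorem maps_of (k : TIso X X' J) (h : J' ⊆ J) : MapsTo k (X.τ ⁻¹' J') (X'.τ ⁻¹' J') := fun x hx =>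
  show X'.τ (k x) ∈ J' from (k.tm x (h hx)).symm ▸ hx

theorem sub_tiso (k : TIso X X' J) (h : J' ⊆ J) (s : Subsingleton (Cls X.P.I (X.τ ⁻¹' J'))) :
    Subsingleton (Cls X'.P.I (X'.τ ⁻¹' J')) :=
  sub_of s (fun _ hy => k.ld (h hy)) (maps_of k h) (fun _ hx => k.symm.ld (h hx)) (maps_of k.symm h)
    fun _ hx => ev_inv k (h hx)

theorem back_tiso (k : TIso X X' J) {s : Cls X.P.I (univ : Set X.P.M)} {d : Cls X'.P.I (univ : Set X'.P.M)}
    (e : d.res (subset_univ (X'.τ ⁻¹' J)) = s.pull (f := k.symm) (fun _ hx => k.symm.ld hx) (mapsTo_univ _ _)) :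
    d.pull (f := k) (W := X.τ ⁻¹' J) (fun _ hy => k.ld hy) (mapsTo_univ _ _) = s.res (subset_univ _) :=
  (res_pull d _ _ (maps_of k subset_rfl)).symm.trans ((congrArg _ e).trans
    (pull_back s _ _ _ _ _ fun _ hx => ev_inv k.symm hx))

/-- **classes extend over a product end** -/
theorem ext_end {B : O3} (k : TIso B.cyl X J) (hJ : IsOpen J) (hJ' : IsOpen J') (hc : OrdConnected (J' ∩ J))
    (hn : (J' ∩ J).Nonempty) (hu : J' ∪ J = univ) (c : Cls X.P.I (X.τ ⁻¹' J')) :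
    ∃ s : Cls X.P.I (univ : Set X.P.M), s.res (subset_univ _) = c := by
  have := sigT X
  have hf := fun y (hy : y ∈ B.cyl.τ ⁻¹' (J' ∩ J)) => k.ld hy.2
  have hm : MapsTo k (B.cyl.τ ⁻¹' (J' ∩ J)) (X.τ ⁻¹' J') := fun _ hy => (maps_of k inter_subset_right hy).1
  obtain ⟨s, e⟩ : ∃ s : B.L, s.res (subset_univ _) = c.pull hf hm := cyl_surj (hJ'.inter hJ) hc hn _
  refine (cls_glue (hJ'.preimage X.cont) (hJ.preimage X.cont) (by rw [← preimage_union, hu, preimage_univ]) c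
    (s.pull (fun _ hx => k.symm.ld hx) (mapsTo_univ _ _)) ?_).imp fun _ h => h.1
  refine (pull_back c hf hm (fun _ hx => k.symm.ld hx.2) (maps_of k.symm inter_subset_right) _
    fun _ hx => ev_inv k hx.2).symm.trans ?_
  rw [← e, res_pull, pull_res]
  rfl

end tiso

/-- **NV-GL** -/
theorem glStmt : Nv5.GlStmt := fun B W₁ W₂ W b a ko ki g => by
  have lt := g.lt
  have hb := g.hb
  have ha := g.ha
  refine ⟨fun d => ?_, fun h d₁ d₂ => ?_⟩
  · obtain ⟨d₁, e₁⟩ := ext_end (J' := {t | t + g.δ₁ < g.β}) ko isOpen_Ioi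
      (isOpen_lt (by fun_prop) continuous_const)
      (OrdConnected.inter ⟨fun _ _ _ h _ k => (add_le_add_left k.2 _).trans_lt h⟩ ordConnected_Ioi)
      ⟨(g.α + g.β) / 2 - g.δ₁, by simp only [mem_ofPred_eq]; linarith, by simp only [mem_Ioi]; linarith⟩
      (eq_univ_of_forall fun t => (lt_or_ge b t).elim .inr fun k => .inl (by simp only [mem_ofPred_eq]; linarith))
      (d.pull (f := g.fl) (fun _ hy => g.l.ld hy) (mapsTo_univ _ _))
    obtain ⟨d₂, e₂⟩ := ext_end (J' := {t | g.α < t + g.δ₂}) ki isOpen_Iio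
      (isOpen_lt continuous_const (by fun_prop))
      (OrdConnected.inter ⟨fun _ h _ _ _ k => h.trans_le (add_le_add_left k.1 _)⟩ ordConnected_Iio)
      ⟨(g.α + g.β) / 2 - g.δ₂, by simp only [mem_ofPred_eq]; linarith, by simp only [mem_Iio]; linarith⟩
      (eq_univ_of_forall fun t => (lt_or_ge t a).elim .inr fun k => .inl (by simp only [mem_ofPred_eq]; linarith))
      (d.pull (f := g.fr) (fun _ hy => g.r.ld hy) (mapsTo_univ _ _))
    exact ⟨d₁, d₂, ⟨_, e₁.symm⟩, _, e₂.symm⟩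
  · have := sigT W.X
    have s0 : Subsingleton (Cls B.cyl.P.I (B.cyl.τ ⁻¹' {t | t + g.δ₁ ∈ Iio g.β ∩ Ioi g.α})) := ⟨fun c c' => by
      have k := cyl_surj (I := B.Y.I) (M := B.Y.M) (J := {t | t + g.δ₁ ∈ Iio g.β ∩ Ioi g.α})
        ((isOpen_Iio.inter isOpen_Ioi).preimage (by fun_prop))
        ((ordConnected_Iio.inter ordConnected_Ioi).preimage_mono fun _ _ k => add_le_add_left k _)
        ⟨(g.α + g.β) / 2 - g.δ₁, by simp only [mem_Iio]; linarith, by simp only [mem_Ioi]; linarith⟩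
      obtain ⟨s, rfl⟩ := k c
      obtain ⟨s', rfl⟩ := k c'
      exact congrArg _ (h.elim s s')⟩
    have s1 := sub_tiso ko (fun t ht => show b < t by linarith [mem_Ioi.1 ht.2]) s0
    have s2 := sub_tiso (J' := Iio g.β ∩ Ioi g.α) g.l inter_subset_left s1
    obtain ⟨d, e₁, e₂⟩ := cls_glue (isOpen_Iio.preimage W.X.cont) (isOpen_Ioi.preimage W.X.cont)
      (by rw [← preimage_union, Iio_union_Ioi_of_lt lt, preimage_univ])
      (d₁.pull (f := g.l.symm) (fun _ hx => g.l.symm.ld hx) (mapsTo_univ _ _))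
      (d₂.pull (f := g.r.symm) (fun _ hx => g.r.symm.ld hx) (mapsTo_univ _ _)) (s2.elim _ _)
    refine ⟨d, ⟨fun _ hy => g.l.ld hy, ?_⟩, fun _ hy => g.r.ld hy, ?_⟩
    · exact back_tiso g.l e₁
    · exact back_tiso g.r e₂

end Crest.Agent.X212.Nvg56
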